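import Vale.Agent.P141.H780.DrNum
import Vale.Agent.P141.H97b.DRN
import Vale.Agent.P141.H97b.WinR
import Vale.Agent.P141.H911.Coef

/-!
# P141, line W, end lemma (DRN): the dropped masses of the family of births

* `drnA`, `drnB`: the hypotheses `hD2`, `hD3` of `H606.tker` for the canonical births `bthO`, any
  cells, any roots;
* `mass_pos`, `drnA_pdec`, `drnB_pdec`: from a decomposition `PDec` on a region, the cells `CO` of the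
  used boxes.
-/

namespace Vale.Agent.P141.H780

open Finset
open Vale.Agent.P141.PL (Pt el iv ix mem_iv card_iv cb cx)
open Vale.Agent.P141.PL.H315 (Tri)
open Vale.Agent.P141.PL.H95 (gr mem_gr card_gr)
open Vale.Agent.P141.H443 (E2 cu xc Cells)
open Vale.Agent.P141.H911 (Th uT dd dd_ne lc)
open Vale.Agent.P141.H347 (cd)
open Vale.Agent.P141.H8 (Rgn En)
open Vale.Agent.P141.H585 (VC thC rC sd12 sd13 sd23 rB sB12 sB13 sB23 rB_nonneg bthO cp_nonneg posB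
  mem_posB posB_sub)
open Vale.Agent.P141.H829 (bw bw_nonneg Bok)
open Vale.Agent.P141.H998 (Bi thB PDec)
open Vale.Agent.P141.H540 (ln)
open Vale.Agent.P141.H865
open Vale.Agent.P141.H606 (DR)
open Vale.Agent.P141.H38 (cP cP_facts)
open Vale.Agent.P141.H97b (rE drA drB CO CO_fst)

noncomputable section

variable {κ μ sg Lg C Mp : ℝ} {o : ℤ} {L N : ℕ} {cf : Bi → ℝ}
  {E : Bi → Finset ℤ × Finset ℤ × Finset ℤ} {v : Bi → Tri} {s : ℤ} {ud : ℕ → ℤ → Prop}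
  {F : ℤ → ℝ} {σ : Equiv.Perm (Fin 4)} {I : Finset Bi} {Cl : Bi → Finset Pt}

/-- the coefficients of a form are small -/
theorem dd_le3 (σ : Equiv.Perm (Fin 4)) (r j : Fin 4) : |dd σ r j| ≤ 3 := by
  unfold dd
  have h1 := (σ r).isLt
  have h2 := (σ j).isLt
  rw [abs_le]
  constructor <;> omega

theorem dd_b0 (σ : Equiv.Perm (Fin 4)) : |dd σ 1 0| ≤ 2 ^ 7 :=
  (dd_le3 σ 1 0).trans (by norm_num)

theorem dd_b23 (σ : Equiv.Perm (Fin 4)) : |dd σ 1 2| + |dd σ 1 3| ≤ 2 ^ 7 :=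
  (add_le_add (dd_le3 σ 1 2) (dd_le3 σ 1 3)).trans (by norm_num)

/-- **The dropped masses, tree of the second coordinate.** -/
theorem drnA [DecidableEq ((Bi × Pt × Pt) × (ℕ × ℤ × ℤ))] (ho : |o| ≤ 1)
    (H : Cells 7 s ud N F C) (hC : 0 ≤ C) (hLN : L ≤ N) (hκ : 0 < κ) (hκ1 : κ ≤ 1)
    (hμ : 0 ≤ μ) (hs : 0 < sg) (hL : 0 ≤ Lg) (hI : ∀ b ∈ I, 0 < rB b)
    (hK : ∀ b ∈ I, b.1.1 ≤ L)
    (hv : ∀ b ∈ I, VC κ b.1.1 b.1.2 b.2 (v b) (E b).1 (E b).2.1 (E b).2.2)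
    (hm : ∑ b ∈ I, |cf b| * bw b ≤ Mp * 2 ^ L)
    (hCl : ∀ b ∈ I, ∀ e ∈ Cl b, e.1 ∈ Ico (0 : ℤ) (6 * 2 ^ (L - b.1.1)))
    (R : ℤ → ℤ → Finset ℤ) :
    ∑ x0 ∈ Ico (0 : ℤ) (6 * 2 ^ L), ∑ x1 ∈ Ico (0 : ℤ) (6 * 2 ^ L), ∑ b ∈ R x0 x1,
      DR (aO (bthO κ μ sg Lg cf E v)
          (fun k x y => cu ud F k (ln (dd σ 1 0 * x0) (dd σ 1 2) (dd σ 1 3) x y)) x1)
        (WA (bthO κ μ sg Lg cf E v)
          (fun k x y => cu ud F k (ln (dd σ 1 0 * x0) (dd σ 1 2) (dd σ 1 3) x y))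
          (fun k n m => N ≤ k ∨ ∃ x ∈ iv k n, ∃ y ∈ iv k m,
            xc ud k (ln (dd σ 1 0 * x0) (dd σ 1 2) (dd σ 1 3) x y))
          (QO (lc σ 0) (bthO κ μ sg Lg cf E v) I Cl) o x0 x1) L b ≤
      DrN κ μ sg Lg C Mp * 2 ^ L * (36 * 4 ^ L) := by
  obtain ⟨c1, c2, c3, c23, c6⟩ := cP_facts σ
  refine (drA (c := lc σ 0) c23 c6 ho (bthO κ μ sg Lg cf E v) I Cl
    (fun x0 k x y => cu ud F k (ln (dd σ 1 0 * x0) (dd σ 1 2) (dd σ 1 3) x y))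
    (fun x0 k n m => N ≤ k ∨ ∃ x ∈ iv k n, ∃ y ∈ iv k m,
      xc ud k (ln (dd σ 1 0 * x0) (dd σ 1 2) (dd σ 1 3) x y)) hK hCl
    (fun b _ => cp_nonneg hμ hL b) (D := DAb κ μ sg Lg cf E v) ?_ ?_ (RN := RNb κ μ sg C) ?_
    R).trans (sum_numA hK hI hκ hμ hs hL hm)
  · intro b _
    have h1 := rB_nonneg b
    unfold DAb
    positivity
  · intro b hb e θ k hk j n m T hT hT' x
    exact H97b.hdA (B := bthO κ μ sg Lg cf E v) (p := (b, e, θ)) (w := b.2) (κ := κ) hμ rfl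
      (hv b hb) hk hT hT' x
  · intro b hb M0 e
    exact hRN H hC (dd_ne σ (by decide)) (dd_ne σ (by decide)) (dd_b0 σ) (dd_b23 σ) c1 c3 hκ hκ1
      hμ hs hL (hI b hb) ((hK b hb).trans hLN) (hv b hb) _ e M0

/-- **The dropped masses, tree of the third coordinate.** -/
theorem drnB [DecidableEq ((Bi × Pt × Pt) × (ℕ × ℤ × ℤ))] (ho : |o| ≤ 1)
    (H : Cells 7 s ud N F C) (hC : 0 ≤ C) (hLN : L ≤ N) (hκ : 0 < κ) (hκ1 : κ ≤ 1)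
    (hμ : 1 ≤ μ) (hs : 0 < sg) (hs1 : sg ≤ 1) (hL : 0 ≤ Lg) (hI : ∀ b ∈ I, 0 < rB b)
    (hK : ∀ b ∈ I, b.1.1 ≤ L)
    (hv : ∀ b ∈ I, VC κ b.1.1 b.1.2 b.2 (v b) (E b).1 (E b).2.1 (E b).2.2)
    (hm : ∑ b ∈ I, |cf b| * bw b ≤ Mp * 2 ^ L)
    (hCl : ∀ b ∈ I, ∀ e ∈ Cl b, e.1 ∈ Ico (0 : ℤ) (6 * 2 ^ (L - b.1.1)))
    (R : ℤ → ℤ → Finset ℤ) :
    ∑ x0 ∈ Ico (0 : ℤ) (6 * 2 ^ L), ∑ x1 ∈ Ico (0 : ℤ) (6 * 2 ^ L), ∑ b ∈ R x0 x1,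
      DR (bO (bthO κ μ sg Lg cf E v)
          (fun k x y => cu ud F k (ln (dd σ 1 0 * x0) (dd σ 1 2) (dd σ 1 3) x y)) x1)
        (WB (bthO κ μ sg Lg cf E v)
          (fun k x y => cu ud F k (ln (dd σ 1 0 * x0) (dd σ 1 2) (dd σ 1 3) x y))
          (fun k n m => N ≤ k ∨ ∃ x ∈ iv k n, ∃ y ∈ iv k m,
            xc ud k (ln (dd σ 1 0 * x0) (dd σ 1 2) (dd σ 1 3) x y))
          (QO (lc σ 0) (bthO κ μ sg Lg cf E v) I Cl) o x0 x1) L b ≤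
      DrN κ μ sg Lg C Mp * 2 ^ L * (36 * 4 ^ L) := by
  have hμ0 : 0 ≤ μ := zero_le_one.trans hμ
  obtain ⟨c1, c2, c3, c23, c6⟩ := cP_facts σ
  refine (drB (c := lc σ 0) c23 c6 ho (bthO κ μ sg Lg cf E v) I Cl
    (fun x0 k x y => cu ud F k (ln (dd σ 1 0 * x0) (dd σ 1 2) (dd σ 1 3) x y))
    (fun x0 k n m => N ≤ k ∨ ∃ x ∈ iv k n, ∃ y ∈ iv k m,
      xc ud k (ln (dd σ 1 0 * x0) (dd σ 1 2) (dd σ 1 3) x y)) hK hCl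
    (fun b _ => cp_nonneg hμ0 hL b) (D := DBb κ μ sg Lg cf E v) ?_ ?_ (RN := RNb κ μ sg C) ?_
    R).trans (sum_numB hK hI hκ hκ1 hμ hs hs1 hL hm)
  · intro b _
    have h1 := rB_nonneg b
    unfold DBb
    positivity
  · intro b hb e θ k hk j n m T hT hT' x
    exact H97b.hdB (B := bthO κ μ sg Lg cf E v) (p := (b, e, θ)) (w := b.2) (κ := κ) hμ0 rfl
      (hv b hb) hk hT hT' x
  · intro b hb M0 e
    exact hRN H hC (dd_ne σ (by decide)) (dd_ne σ (by decide)) (dd_b0 σ) (dd_b23 σ) c1 c3 hκ hκ1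
      hμ0 hs hL (hI b hb) ((hK b hb).trans hLN) (hv b hb) _ e M0

/-! ### From a decomposition on a region -/

section region

variable {gd : ℕ → ℤ → Prop} {Λ : ℕ} {x : ℤ} {Mm : ℝ} {P G1 : ℤ → ℝ} {B : Finset Bi}
  {Fi : ℕ → ℤ → ℝ} {nd : Finset (ℕ × ℤ)}

/-- the mass of the births -/
theorem mass_pos {c : Pt} (hd : PDec s c Λ x κ μ (Mm * cd (gr 7 s) Λ x) P B cf E v Fi) :
    ∑ b ∈ posB B, |cf b| * bw b ≤ 128 * Mm * 2 ^ Λ := by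
  have h1 : cd (gr 7 s) Λ x = 2 ^ (Λ + 7) := by unfold cd; rw [card_gr]; push_cast; rfl
  have h2 : ∑ b ∈ posB B, |cf b| * bw b ≤ ∑ b ∈ B, |cf b| * bw b :=
    sum_le_sum_of_subset_of_nonneg posB_sub fun b _ _ => mul_nonneg (abs_nonneg _) (bw_nonneg b)
  refine (h2.trans hd.mass).trans (le_of_eq ?_)
  rw [h1, pow_add]
  ring

/-- **`hD2` of `tker` from a decomposition.** -/
theorem drnA_pdec [DecidableEq ((Bi × Pt × Pt) × (ℕ × ℤ × ℤ))] (ho : |o| ≤ 1)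
    (hR : Rgn (gr 7 s) gd Λ x ud) (hG : En (gr 7 s) ud G1 C) (hC : 0 ≤ C) (hκ : 0 < κ)
    (hκ1 : κ ≤ 1) (hμ : 0 ≤ μ) (hs : 0 < sg) (hL : 0 ≤ Lg)
    (hd : PDec s (lc σ 0) Λ x κ μ (Mm * cd (gr 7 s) Λ x) P B cf E v Fi)
    (R : ℤ → ℤ → Finset ℤ) :
    ∑ x0 ∈ Ico (0 : ℤ) (6 * 2 ^ Λ), ∑ x1 ∈ Ico (0 : ℤ) (6 * 2 ^ Λ), ∑ b ∈ R x0 x1,
      DR (aO (bthO κ μ sg Lg cf E v)
          (fun k x y => cu ud G1 k (ln (dd σ 1 0 * x0) (dd σ 1 2) (dd σ 1 3) x y)) x1)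
        (WA (bthO κ μ sg Lg cf E v)
          (fun k x y => cu ud G1 k (ln (dd σ 1 0 * x0) (dd σ 1 2) (dd σ 1 3) x y))
          (fun k n m => Λ ≤ k ∨ ∃ x ∈ iv k n, ∃ y ∈ iv k m,
            xc ud k (ln (dd σ 1 0 * x0) (dd σ 1 2) (dd σ 1 3) x y))
          (QO (lc σ 0) (bthO κ μ sg Lg cf E v) (posB B)
            (fun b => CO σ o nd Λ (bthO κ μ sg Lg cf E v b).K)) o x0 x1) Λ b ≤
      DrN κ μ sg Lg C (128 * Mm) * 2 ^ Λ * (36 * 4 ^ Λ) :=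
  drnA ho (Cells.of hR hG) hC le_rfl hκ hκ1 hμ hs hL (fun b hb => (mem_posB.1 hb).2)
    (fun b hb => (hd.bok b (posB_sub hb)).le) (fun b hb => hd.vc b (posB_sub hb)) (mass_pos hd)
    (fun _ hb _ he => CO_fst (hd.bok _ (posB_sub hb)).le he) R

/-- **`hD3` of `tker` from a decomposition.** -/
theorem drnB_pdec [DecidableEq ((Bi × Pt × Pt) × (ℕ × ℤ × ℤ))] (ho : |o| ≤ 1)
    (hR : Rgn (gr 7 s) gd Λ x ud) (hG : En (gr 7 s) ud G1 C) (hC : 0 ≤ C) (hκ : 0 < κ)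
    (hκ1 : κ ≤ 1) (hμ : 1 ≤ μ) (hs : 0 < sg) (hs1 : sg ≤ 1) (hL : 0 ≤ Lg)
    (hd : PDec s (lc σ 0) Λ x κ μ (Mm * cd (gr 7 s) Λ x) P B cf E v Fi)
    (R : ℤ → ℤ → Finset ℤ) :
    ∑ x0 ∈ Ico (0 : ℤ) (6 * 2 ^ Λ), ∑ x1 ∈ Ico (0 : ℤ) (6 * 2 ^ Λ), ∑ b ∈ R x0 x1,
      DR (bO (bthO κ μ sg Lg cf E v)
          (fun k x y => cu ud G1 k (ln (dd σ 1 0 * x0) (dd σ 1 2) (dd σ 1 3) x y)) x1)
        (WB (bthO κ μ sg Lg cf E v)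
          (fun k x y => cu ud G1 k (ln (dd σ 1 0 * x0) (dd σ 1 2) (dd σ 1 3) x y))
          (fun k n m => Λ ≤ k ∨ ∃ x ∈ iv k n, ∃ y ∈ iv k m,
            xc ud k (ln (dd σ 1 0 * x0) (dd σ 1 2) (dd σ 1 3) x y))
          (QO (lc σ 0) (bthO κ μ sg Lg cf E v) (posB B)
            (fun b => CO σ o nd Λ (bthO κ μ sg Lg cf E v b).K)) o x0 x1) Λ b ≤
      DrN κ μ sg Lg C (128 * Mm) * 2 ^ Λ * (36 * 4 ^ Λ) :=
  drnB ho (Cells.of hR hG) hC le_rfl hκ hκ1 hμ hs hs1 hL (fun b hb => (mem_posB.1 hb).2)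
    (fun b hb => (hd.bok b (posB_sub hb)).le) (fun b hb => hd.vc b (posB_sub hb)) (mass_pos hd)
    (fun _ hb _ he => CO_fst (hd.bok _ (posB_sub hb)).le he) R

end region

end

end Vale.Agent.P141.H780
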