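import Vale.Agent.P141.H865.Ker3
import Vale.Agent.P141.H150.Mv23K
import Vale.Agent.P141.H540.RPart
import Vale.Agent.P141.H585.Bth0

/-!
# P141, line W, end lemma (DRN): the births of all the components, in numbers

* `rE_one`: the energies at the birth squares of one atom over one cell, summed over the offsets and
  over `x0`; `hRN`: in numbers;
* `numA`, `numB`: one birth; `sum_numA`, `sum_numB`: the sum over the births.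
-/

namespace Vale.Agent.P141.H780

open Finset
open Vale.Agent.P141.PL (Pt el iv ix mem_iv card_iv cb cx)
open Vale.Agent.P141.PL.H315 (Tri)
open Vale.Agent.P141.H443 (E2 cset)
open Vale.Agent.P141.H911 (Th uT)
open Vale.Agent.P141.H585 (VC lvS mem_lvS thC thC_nonneg rC rC_nonneg rC_mul sd12 sd13 sd23
  sd12_nonneg sd13_nonneg sd23_nonneg hgt_th hgt_nonneg pwC pwC_nonneg id1 id1_nonneg
  rB sB12 sB13 sB23 rB_nonneg sB_pos rB_mul bw_eq lamB tauB LpB bthO tauB_pos a_sq b_sq cp_nonneg)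
open Vale.Agent.P141.H829 (bw bw_nonneg)
open Vale.Agent.P141.H998 (Bi thB)
open Vale.Agent.P141.H540 (sum_sq_lv)
open Vale.Agent.P141.H38 (abs_cs_le)
open Vale.Agent.P141.H865
open Vale.Agent.P141.H97b (rE rE_mv_le mtc tb famA_le famB_le mcA mcB)
open Vale.Agent.P141.H150.Mv (Gau M23 M23_cu evE gau_ln)
open Vale.Agent.P141.H443 (cu xc Cells)
open Vale.Agent.P141.H540 (ln)

noncomputable section

open scoped Classical

variable {κ μ sg Lg C : ℝ} {o : ℤ} {c : Pt} {Λ : ℕ}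
  {G : ℤ → ℕ → ℤ → ℤ → ℝ} {ex : ℤ → ℕ → ℤ → ℤ → Prop}

/-! ### The energies at the birth squares -/

section one

variable {ι : Type*} {Bt : ι → Bth} {i : ι} {u : Tri}

/-- one birth, one cell, the fibres of one set `X0` -/
theorem rE_one (hth : (Bt i).th = thC μ (Bt i).K (Bt i).q u)
    (hv : VC κ (Bt i).K (Bt i).q u (Bt i).v (Bt i).S1 (Bt i).S2 (Bt i).S3) (hc1 : c.1 ≠ 0)
    (hc3 : c.2.2 ≠ 0) (hκ : 0 < κ) (hμ : 0 ≤ μ) (hcp : 0 ≤ (Bt i).cp) {τ : ℝ} (hτ : 0 < τ)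
    (hxi : (Bt i).xi = τ ^ 2 / 4) (het : (Bt i).et = τ ^ 2 / 4) {P : Pt} {X0 : Finset ℤ}
    {Lm L D : ℝ} (hLm : 0 ≤ Lm) (g : Gau (Bt i).K P.2.1 P.2.2 X0 G ex Lm L D) (p : Pt) :
    ∑ θ ∈ Th c (Bt i).K p (Bt i).q, ∑ x0 ∈ X0,
      rE (mvRO Bt (G x0) (ex x0) (i, P, θ)) (Bt i).K P.2.1 P.2.2
        (fun k n m => E2 (iv k n) (iv k m) (kA (Bt i) (G x0) θ k)) ≤
      2 * (μ * rC (Bt i).K (Bt i).q u ^ 2 * sd23 (Bt i).K (Bt i).q u ^ 2 / κ ^ 4) * Lm *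
        (12 / τ ^ 2) * M23 κ (Bt i).K (Bt i).q u L D := by
  have h4 : 0 < τ ^ 2 / 4 := by positivity
  have e : 1 / (τ ^ 2 / 4) + 2 / (τ ^ 2 / 4) = 12 / τ ^ 2 := by
    field_simp
    norm_num
  have hΛ' : 0 ≤ 2 * (μ * rC (Bt i).K (Bt i).q u ^ 2 * sd23 (Bt i).K (Bt i).q u ^ 2 / κ ^ 4) *
      Lm := by positivity
  have hθ : 0 ≤ (Bt i).th := by rw [hth]; exact thC_nonneg hμ _ _ _
  have hs := g.sum (c := c) (p := p) (th := (Bt i).th) hc1 hc3 hκ hθ hv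
  refine le_trans ?_ (mul_le_mul_of_nonneg_left hs (mul_nonneg hΛ' (by positivity)))
  rw [mul_sum]
  refine sum_le_sum fun θ _ => ?_
  rw [mul_sum]
  refine sum_le_sum fun x0 h0 => ?_
  have key := rE_mv_le (A := kA (Bt i) (G x0) θ) (c := (Bt i).cp) (ξ := (Bt i).xi)
    (η := (Bt i).et) (us := fun _ _ _ => True) (ev := evO (Bt i) (ex x0) θ) (K := (Bt i).K)
    (p2 := P.2.1) (p3 := P.2.2) hcp (by rw [hxi]; exact h4) (by rw [het]; exact h4)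
    (fun _ _ _ _ => trivial) (kA_eq (g.hex x0 h0) θ) hΛ'
    (fun k hk n m _ => by
      have h5 := g.en (μ := μ) (κ := κ) (q := (Bt i).q) (u := u) (v := (Bt i).v)
        (S1 := (Bt i).S1) (S2 := (Bt i).S2) (S3 := (Bt i).S3) hμ hLm hv h0 θ hk n m
      rw [← hth] at h5
      exact h5)
  rw [hxi, het, e] at key
  rw [mul_assoc]
  have e2 : mvRO Bt (G x0) (ex x0) (i, P, θ) = Vale.Agent.P141.H97b.mvR (kA (Bt i) (G x0) θ)
      (Bt i).cp (τ ^ 2 / 4) (τ ^ 2 / 4) (fun _ _ _ => True) (evO (Bt i) (ex x0) θ) (Bt i).K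
      P.2.1 P.2.2 := by
    unfold mvRO
    simp only [hxi, het]
  rw [e2]
  exact key

end one

/-! ### One birth in numbers -/

/-- the constant of one birth -/
def cN : ℝ := 6144 * 50944

/-- the number of one birth -/
def RNb (κ μ sg C : ℝ) (b : Bi) : ℝ :=
  cN * (μ * C ^ 2 / (κ ^ 12 * sg ^ 2)) * (32 ^ b.1.1 * sB23 b ^ 2)

theorem cN_nonneg : 0 ≤ cN := by unfold cN; norm_num

theorem RNb_nonneg (hμ : 0 ≤ μ) (b : Bi) : 0 ≤ RNb κ μ sg C b := by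
  have := cN_nonneg
  unfold RNb
  positivity

variable {cf : Bi → ℝ} {E : Bi → Finset ℤ × Finset ℤ × Finset ℤ} {v : Bi → Tri}
  {s : ℤ} {ud : ℕ → ℤ → Prop} {N : ℕ} {F : ℤ → ℝ} {q0 q2 q3 : ℤ}

/-- **The births of one atom over one cell, in numbers.** -/
theorem hRN (H : Cells 7 s ud N F C) (hC : 0 ≤ C) (h0 : q0 ≠ 0) (h3 : q3 ≠ 0)
    (b0 : |q0| ≤ 2 ^ 7) (b23 : |q2| + |q3| ≤ 2 ^ 7) (hc1 : c.1 ≠ 0) (hc3 : c.2.2 ≠ 0)
    (hκ : 0 < κ) (hκ1 : κ ≤ 1) (hμ : 0 ≤ μ) (hs : 0 < sg) (hL : 0 ≤ Lg) {b : Bi}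
    (hb : 0 < rB b) (hK : b.1.1 ≤ N)
    (hv : VC κ b.1.1 b.1.2 b.2 (v b) (E b).1 (E b).2.1 (E b).2.2) (p e : Pt) (M0 : ℤ) :
    ∑ θ ∈ Th c (bthO κ μ sg Lg cf E v b).K p (bthO κ μ sg Lg cf E v b).q,
      ∑ x0 ∈ iv (bthO κ μ sg Lg cf E v b).K M0,
      rE (mvRO (bthO κ μ sg Lg cf E v) (fun k x y => cu ud F k (ln (q0 * x0) q2 q3 x y))
        (fun k n m => N ≤ k ∨ ∃ x ∈ iv k n, ∃ y ∈ iv k m, xc ud k (ln (q0 * x0) q2 q3 x y))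
        (b, e, θ)) (bthO κ μ sg Lg cf E v b).K e.2.1 e.2.2
        (fun k n m => E2 (iv k n) (iv k m) (kA (bthO κ μ sg Lg cf E v b)
          (fun k x y => cu ud F k (ln (q0 * x0) q2 q3 x y)) θ k)) ≤ RNb κ μ sg C b := by
  have h23 := (sB_pos hb).2.2
  have g := gau_ln (X0 := iv b.1.1 M0) (r0 := M0) H hC hK h0 h3 b0 b23 (subset_refl _)
    e.2.1 e.2.2
  have h1 := rE_one (Bt := bthO κ μ sg Lg cf E v) (i := b) (u := b.2) (κ := κ) (μ := μ) (c := c)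
    rfl hv hc1 hc3 hκ hμ (cp_nonneg hμ hL b) (tauB_pos hs hb) rfl rfl (P := e)
    (X0 := iv b.1.1 M0) (by positivity) g p
  refine h1.trans ?_
  have h2 : M23 κ (bthO κ μ sg Lg cf E v b).K (bthO κ μ sg Lg cf E v b).q b.2
      (2 * C * 2 ^ 7 * 2 ^ b.1.1) (12 * C * 2 ^ 7 * 2 ^ b.1.1) ≤
      50944 * C * 32 ^ b.1.1 * sB23 b ^ 2 / κ ^ 8 := by
    have h3 := M23_cu (K := b.1.1) (q := b.1.2) (u := b.2) hκ hκ1 hC
    have e1 : 2 * C * 2 ^ (b.1.1 + 7) = 2 * C * 2 ^ 7 * 2 ^ b.1.1 := by rw [pow_add]; ring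
    have e2 : 12 * C * 2 ^ (b.1.1 + 7) = 12 * C * 2 ^ 7 * 2 ^ b.1.1 := by rw [pow_add]; ring
    rw [e1, e2] at h3
    exact h3
  have h4 : 0 ≤ 2 * (μ * rC (bthO κ μ sg Lg cf E v b).K (bthO κ μ sg Lg cf E v b).q b.2 ^ 2 *
      sd23 (bthO κ μ sg Lg cf E v b).K (bthO κ μ sg Lg cf E v b).q b.2 ^ 2 / κ ^ 4) *
      (2 * C * 2 ^ 7) * (12 / tauB sg b ^ 2) := by positivity
  refine (mul_le_mul_of_nonneg_left h2 h4).trans (le_of_eq ?_)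
  show 2 * (μ * rB b ^ 2 * sB23 b ^ 2 / κ ^ 4) * (2 * C * 2 ^ 7) *
    (12 / (sg * rB b * sB23 b) ^ 2) * (50944 * C * 32 ^ b.1.1 * sB23 b ^ 2 / κ ^ 8) = _
  unfold RNb cN
  have hr := hb.ne'
  have hs3 := h23.ne'
  field_simp
  ring

/-- the number of the first side, one birth -/
def DAb (κ μ sg Lg : ℝ) (cf : Bi → ℝ) (E : Bi → Finset ℤ × Finset ℤ × Finset ℤ) (v : Bi → Tri)
    (b : Bi) : ℝ :=
  (bthO κ μ sg Lg cf E v b).a ^ 2 * (2 * (μ * rB b ^ 2 * sB12 b ^ 2 / κ ^ 4))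

/-- the number of the second side, one birth -/
def DBb (κ μ sg Lg : ℝ) (cf : Bi → ℝ) (E : Bi → Finset ℤ × Finset ℤ × Finset ℤ) (v : Bi → Tri)
    (b : Bi) : ℝ :=
  (bthO κ μ sg Lg cf E v b).b ^ 2 * (2 * (μ * rB b ^ 2 * sB13 b ^ 2 / κ ^ 4))

/-- **The first side of one birth.** -/
theorem numA (hκ : 0 < κ) (hμ : 0 ≤ μ) (hs : 0 < sg) (hL : 0 ≤ Lg) {b : Bi} (hb : 0 < rB b) :
    17 * DAb κ μ sg Lg cf E v b * ((bthO κ μ sg Lg cf E v b).cp / 2 * RNb κ μ sg C b) ≤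
      17 * cN * (μ ^ 3 * Lg * C ^ 2 / (κ ^ 20 * sg ^ 6)) *
        (|cf b| * (32 ^ b.1.1 * pwC b.1.1 b.1.2 b.2)) := by
  obtain ⟨h12, h13, h23⟩ := sB_pos hb
  have hc := cN_nonneg
  have hw := rB_mul b
  have e1 : 17 * DAb κ μ sg Lg cf E v b *
      ((bthO κ μ sg Lg cf E v b).cp / 2 * RNb κ μ sg C b) =
      17 * cN * (μ ^ 3 * Lg * C ^ 2 / (κ ^ 20 * sg ^ 6)) *
        (|cf b| * (32 ^ b.1.1 * (rB b * (sB12 b * sB13 b * sB23 b)))) := by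
    unfold DAb RNb
    rw [a_sq]
    show 17 * (|cf b| * (rB b * sB13 b * sB23 b / sB12 b) *
      (2 * (μ * rB b ^ 2 * sB12 b ^ 2 / κ ^ 4))) *
      (μ * rB b ^ 2 * sB23 b ^ 2 / κ ^ 4 * Lg / (sg * rB b * sB23 b) ^ 4 / 2 *
      (cN * (μ * C ^ 2 / (κ ^ 12 * sg ^ 2)) * (32 ^ b.1.1 * sB23 b ^ 2))) = _
    have hr := hb.ne'
    have g12 := h12.ne'
    have g13 := h13.ne'
    have g23 := h23.ne'
    field_simp
  rw [e1]
  refine mul_le_mul_of_nonneg_left ?_ (by positivity)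
  refine mul_le_mul_of_nonneg_left ?_ (abs_nonneg _)
  exact mul_le_mul_of_nonneg_left hw (by positivity)

/-- **The second side of one birth.** -/
theorem numB (hκ : 0 < κ) (_hμ : 0 ≤ μ) (hs : 0 < sg) {b : Bi} (hb : 0 < rB b) :
    17 * DBb κ μ sg Lg cf E v b * RNb κ μ sg C b ≤
      17 * (2 * cN) * (μ ^ 2 * C ^ 2 / (κ ^ 16 * sg ^ 2)) *
        (|cf b| * (32 ^ b.1.1 * pwC b.1.1 b.1.2 b.2)) := by
  obtain ⟨h12, h13, h23⟩ := sB_pos hb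
  have hc := cN_nonneg
  have hw := rB_mul b
  have e1 : 17 * DBb κ μ sg Lg cf E v b * RNb κ μ sg C b =
      17 * (2 * cN) * (μ ^ 2 * C ^ 2 / (κ ^ 16 * sg ^ 2)) *
        (|cf b| * (32 ^ b.1.1 * (rB b * (sB12 b * sB13 b * sB23 b)))) := by
    unfold DBb RNb
    rw [b_sq]
    have hr := hb.ne'
    have g12 := h12.ne'
    have g13 := h13.ne'
    have g23 := h23.ne'
    field_simp
  rw [e1]
  refine mul_le_mul_of_nonneg_left ?_ (by positivity)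
  refine mul_le_mul_of_nonneg_left ?_ (abs_nonneg _)
  exact mul_le_mul_of_nonneg_left hw (by positivity)

/-! ### The sum over the births -/

/-- the births of all the scales -/
theorem sum_births {I : Finset Bi} {Λ : ℕ} (hK : ∀ b ∈ I, b.1.1 ≤ Λ) {W Mp : ℝ} (hW : 0 ≤ W)
    {f : Bi → ℝ} (hf : ∀ b ∈ I, f b ≤ W * (|cf b| * (32 ^ b.1.1 * pwC b.1.1 b.1.2 b.2)))
    (hm : ∑ b ∈ I, |cf b| * bw b ≤ Mp * 2 ^ Λ) :
    ∑ b ∈ I, 6732 * 4 ^ (Λ - b.1.1) * f b ≤ 187 * W * Mp * 2 ^ Λ * (36 * 4 ^ Λ) := by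
  have h1 : ∀ b ∈ I, 6732 * (4 : ℝ) ^ (Λ - b.1.1) * f b ≤
      6732 * W * 4 ^ Λ * (|cf b| * bw b) := by
    intro b hb
    refine (mul_le_mul_of_nonneg_left (hf b hb) (by positivity)).trans (le_of_eq ?_)
    rw [bw_eq]
    obtain ⟨d, hd⟩ := Nat.exists_eq_add_of_le (hK b hb)
    rw [hd, Nat.add_sub_cancel_left, pow_add,
      show (32 : ℝ) = 4 * 8 by norm_num, mul_pow]
    ring
  refine (sum_le_sum h1).trans ?_
  rw [← mul_sum]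
  refine (mul_le_mul_of_nonneg_left hm (by positivity)).trans (le_of_eq ?_)
  ring

/-- the number of the births and drops -/
def DrN (κ μ sg Lg C Mp : ℝ) : ℝ :=
  187 * (34 * cN * (μ ^ 3 * (1 + Lg) * C ^ 2 / (κ ^ 20 * sg ^ 6))) * Mp

theorem DrN_nonneg (hμ : 0 ≤ μ) (hL : 0 ≤ Lg) {Mp : ℝ} (hM : 0 ≤ Mp) :
    0 ≤ DrN κ μ sg Lg C Mp := by
  have := cN_nonneg
  unfold DrN
  positivity

theorem sum_numA {I : Finset Bi} {Λ : ℕ} (hK : ∀ b ∈ I, b.1.1 ≤ Λ) (hI : ∀ b ∈ I, 0 < rB b)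
    (hκ : 0 < κ) (hμ : 0 ≤ μ) (hs : 0 < sg) (hL : 0 ≤ Lg) {Mp : ℝ} 
    (hm : ∑ b ∈ I, |cf b| * bw b ≤ Mp * 2 ^ Λ) :
    ∑ b ∈ I, 6732 * 4 ^ (Λ - b.1.1) *
      (17 * DAb κ μ sg Lg cf E v b * ((bthO κ μ sg Lg cf E v b).cp / 2 * RNb κ μ sg C b)) ≤
      DrN κ μ sg Lg C Mp * 2 ^ Λ * (36 * 4 ^ Λ) := by
  have hc := cN_nonneg
  refine (sum_births (W := 34 * cN * (μ ^ 3 * (1 + Lg) * C ^ 2 / (κ ^ 20 * sg ^ 6))) hK
    (by positivity) (fun b hb => ?_) hm).trans (le_of_eq ?_)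
  · refine (numA hκ hμ hs hL (hI b hb)).trans ?_
    refine mul_le_mul_of_nonneg_right ?_
      (mul_nonneg (abs_nonneg _) (mul_nonneg (by positivity) (pwC_nonneg _ _ _)))
    gcongr
    · norm_num
    · linarith
  · rfl

theorem sum_numB {I : Finset Bi} {Λ : ℕ} (hK : ∀ b ∈ I, b.1.1 ≤ Λ) (hI : ∀ b ∈ I, 0 < rB b)
    (hκ : 0 < κ) (hκ1 : κ ≤ 1) (hμ : 1 ≤ μ) (hs : 0 < sg) (hs1 : sg ≤ 1) (hL : 0 ≤ Lg) {Mp : ℝ}
    (hm : ∑ b ∈ I, |cf b| * bw b ≤ Mp * 2 ^ Λ) :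
    ∑ b ∈ I, 6732 * 4 ^ (Λ - b.1.1) *
      (17 * DBb κ μ sg Lg cf E v b * RNb κ μ sg C b) ≤
      DrN κ μ sg Lg C Mp * 2 ^ Λ * (36 * 4 ^ Λ) := by
  have hc := cN_nonneg
  have hμ0 : 0 ≤ μ := zero_le_one.trans hμ
  refine (sum_births (W := 34 * cN * (μ ^ 3 * (1 + Lg) * C ^ 2 / (κ ^ 20 * sg ^ 6))) hK
    (by positivity) (fun b hb => ?_) hm).trans (le_of_eq ?_)
  · refine (numB hκ hμ0 hs (hI b hb)).trans ?_
    refine mul_le_mul_of_nonneg_right ?_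
      (mul_nonneg (abs_nonneg _) (mul_nonneg (by positivity) (pwC_nonneg _ _ _)))
    have h1 : 17 * (2 * cN) = 34 * cN := by ring
    rw [h1]
    refine mul_le_mul_of_nonneg_left ?_ (by positivity)
    have h2 : μ ^ 2 * C ^ 2 ≤ μ ^ 3 * (1 + Lg) * C ^ 2 := by
      refine mul_le_mul_of_nonneg_right ?_ (sq_nonneg C)
      calc μ ^ 2 ≤ μ ^ 3 := pow_le_pow_right₀ hμ (by norm_num)
        _ ≤ μ ^ 3 * (1 + Lg) := le_mul_of_one_le_right (by positivity) (by linarith)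
    have h3 : κ ^ 20 * sg ^ 6 ≤ κ ^ 16 * sg ^ 2 :=
      mul_le_mul (pow_le_pow_of_le_one hκ.le hκ1 (by norm_num))
        (pow_le_pow_of_le_one hs.le hs1 (by norm_num)) (by positivity) (by positivity)
    exact div_le_div₀ (by positivity) h2 (by positivity) h3
  · rfl

end

end Vale.Agent.P141.H780
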