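import Vale.Agent.P141.H585.PairRXS
import Vale.Agent.P141.H796.EVreal
import Vale.Agent.P141.H516.StopFib
import Vale.Agent.P141.H677.SlotX
import Vale.Agent.P141.H771.ZbPts
import Vale.Agent.P141.H451.BMnum

/-!
# P141, line (A), flow part, hub x1: the energy of the drifts on the partner, class data

* `Wt` : the square of the kill weight of `b` at the time `k - 1`; `Wt_lines`, `Wt_alive`;
* `sgn_alive` : the signs of a slot live on the cells with small rows;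
* `ev_fd` : the sum over `x0` of the number `ZV` of `H585.PairRX` is at most a constant times
  `e (3 + 10 log (r / t)) s 8 ^ K`, for every slot `SlotN` and every grid.
-/

namespace Vale.Agent.P141.H780.Ev

open Finset Matrix
open Vale.Agent.P141.PL (Pt iv ix mem_iv ix_ix cx)
open Vale.Agent.P141.PL.H315 (Tri)
open Vale.Agent.P141.H48 (BSl sst)
open Vale.Agent.P141.H43 (nsq nsq_nonneg)
open Vale.Agent.P141.H43.Seam (DQ)
open Vale.Agent.P141.H841 (Rs Rm)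
open Vale.Agent.P141.H677 (MT KT GT tr_T GT_trace sN mem_sN rv kF fb)
open Vale.Agent.P141.H677.Sk (FamA FamV FDs lam1 Slt SlotN)
open Vale.Agent.P141.H401 (FibU mb)
open Vale.Agent.P141.H305 (Cls)
open Vale.Agent.P141.H784 (Tie)
open Vale.Agent.P141.H795 (ys)
open Vale.Agent.P141.H747 (RgS shB MSb)
open Vale.Agent.P141.H796 (A2)
open Vale.Agent.P141.H771 (Mz)
open Vale.Agent.P141.H585.PairRX (ZV DR)

noncomputable section

open scoped Classical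

set_option linter.unusedSectionVars false

variable {ι : Type} [Fintype ι] [DecidableEq ι]

/-! ### The slot -/

theorem RgS_Rs {K : ℕ} {o : ℤ} {l : ℝ} {u : ℤ → ℤ → ι → ℝ} {R : Slt ι}
    {sg : ℤ → ℕ → ℤ → ℤ → ℝ}
    (hR : ∀ x0 j z x1, R x0 j z x1 = H841.Rm (MT l (KT l u x1)) o x1 (sg x1) K j x0 z)
    (h h1 x0 : ℤ) (k : ℕ) (n x : ℤ) :
    RgS R h h1 x0 k n x =
      Rs (MT l (KT l u (x + h1))) o (x + h1) (sg (x + h1)) K h k x0 n := by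
  unfold H747.RgS H841.Rs H43.avv
  simp only [hR]

theorem DR_eq (R : Slt ι) (s : Pt) (x0 : ℤ) (k : ℕ) (x n : ℤ) :
    DR R s x0 (k + 1) x n =
      RgS R s.2.2 s.1 x0 k (2 * n) x - RgS R s.2.2 s.1 x0 (k + 1) n x := by
  unfold H585.PairRX.DR H43.Seam.DQ
  rw [H747.RgS_mart, Nat.add_sub_cancel]
  module

theorem DR_symm {R : Slt ι} (hs : ∀ x0 z x1, (R x0 0 z x1)ᵀ = R x0 0 z x1) (s : Pt) (x0 : ℤ)
    (k : ℕ) (x n : ℤ) : (DR R s x0 k x n)ᵀ = DR R s x0 k x n := by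
  have h1 : ∀ k n x, (RgS R s.2.2 s.1 x0 k n x)ᵀ = RgS R s.2.2 s.1 x0 k n x := by
    intro k n x
    unfold H747.RgS
    rw [transpose_smul, transpose_sum]
    simp only [hs]
  exact H43.Seam.DQ_symm h1 k n x

/-! ### The weight -/

/-- the square of the kill weight of `b` at the time `k - 1`, root of `x2` only -/
def Wt (q : H401.Num) (U : Tri) (K : ℕ) (F3 : ℕ → Pt → ℝ) (M2 x1 : ℤ) (k : ℕ) (x0 x2 : ℤ) : ℝ :=
  if x2 ∈ iv K M2 then kF q.Lm U.1 K F3 (k - 1) (x0, x1, x2) ^ 2 else 0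

theorem Wt_nonneg (q : H401.Num) (U : Tri) (K : ℕ) (F3 : ℕ → Pt → ℝ) (M2 x1 : ℤ) (k : ℕ)
    (x0 x2 : ℤ) : 0 ≤ Wt q U K F3 M2 x1 k x0 x2 := by
  unfold Wt
  split_ifs
  · exact sq_nonneg _
  · exact le_rfl

theorem Wt_lines {q : H401.Num} {U : Tri} {K n : ℕ} {F3 : ℕ → Pt → ℝ} {Q3 : ℕ → Pt → Prop}
    {M2 x1 : ℤ} (hB : BSl n q.e q.cP F3 Q3) (he : 0 ≤ q.e) (hKn : K ≤ n) {k : ℕ}
    (hk : k ∈ Icc 1 K) (i x2 : ℤ) :
    ∑ x0 ∈ iv k i, Wt q U K F3 M2 x1 k x0 x2 ≤ q.e * 2 ^ k := by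
  rw [mem_Icc] at hk
  obtain ⟨k', rfl⟩ : ∃ k', k = k' + 1 := ⟨k - 1, by omega⟩
  unfold Wt
  rw [Nat.add_sub_cancel]
  by_cases hx : x2 ∈ iv K M2
  swap
  · simp only [if_neg hx, sum_const_zero]
    positivity
  simp only [if_pos hx]
  cases k' with
  | zero =>
    have h0 : ∀ x0 : ℤ, kF q.Lm U.1 K F3 0 (x0, x1, x2) ^ 2 = 0 := fun x0 => by
      unfold H677.kF
      rw [if_pos (Or.inl rfl)]
      norm_num
    simp only [h0, sum_const_zero]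
    positivity
  | succ j =>
    have h1 : ∀ x0 : ℤ, kF q.Lm U.1 K F3 (j + 1) (x0, x1, x2) ^ 2 ≤
        F3 (j + 1) (x0, x1, x2) ^ 2 := fun x0 => by
      unfold H677.kF
      by_cases h0 : j + 1 = 0 ∨ sst q.Lm U.1 K (j + 1) x1 x2
      · rw [if_pos h0, zero_pow two_ne_zero]
        exact sq_nonneg _
      · rw [if_neg h0]
    refine (sum_le_sum fun x0 _ => h1 x0).trans ?_
    rw [H451.BM.sum_cells (show j ≤ j + 1 + 1 by omega) i]
    refine (sum_le_sum fun p _ => hB.l0 j (by omega) p x1 x2).trans (le_of_eq ?_)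
    rw [sum_const, PL.card_iv, nsmul_eq_mul, show j + 1 + 1 - j = 2 by omega]
    push_cast
    ring

variable {q : H401.Num} {K : ℕ} {x : Pt} {s r : ℝ} {U : Tri} {u : ℤ → ℤ → ι → ℝ}

theorem Wt_alive (hF : FibU q K x s r U u) {F3 : ℕ → Pt → ℝ} {k : ℕ}
    (hk : k ∈ Icc 1 K) {x1 : ℤ} (h1 : x1 ∈ iv K (ix K x.1)) {x0 x2 : ℤ}
    (hW : Wt q U K F3 (ix K x.2.1) x1 k x0 x2 ≠ 0) :
    A2 K (ix K x.2.1) (GT u x1) (lam1 q s r / 2) k (ix k x2) := by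
  unfold Wt at hW
  have hx : x2 ∈ iv K (ix K x.2.1) := by
    by_contra h
    rw [if_neg h] at hW
    exact hW rfl
  rw [if_pos hx] at hW
  have hs : ¬ sst q.Lm U.1 K (k - 1) x1 x2 := by
    intro h
    apply hW
    unfold H677.kF
    rw [if_pos (Or.inr h)]
    norm_num
  have hs' : ¬ sst q.Lm U.1 K k x1 x2 := fun h => hs (H769.sst_anti (by omega) h)
  exact H516.ar_fib hF (by linarith) (mem_Icc.1 hk).2 h1 hx hs'

theorem sgn_alive (hF : FibU q K x s r U u) {x1 : ℤ}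
    (h1 : x1 ∈ iv K (ix K x.1)) {o : ℤ} {sg : ℕ → ℤ → ℤ → ℝ} {i : ℕ} (hiK : i ≤ K) {a b : ℤ}
    (hoff : ((b, o - 2 - a - ix i x1 - b, ix i x1) : Pt) ∉
      sN (q.al U K) o K (cx K x) (2 ^ i * a) i → sg i a b = 0)
    (hne : sg i a b ≠ 0) :
    A2 K (ix K x.2.1) (GT u x1) (lam1 q s r / 2) i (o - 2 - ix i x1 - b - a) := by
  have hm : ((b, o - 2 - a - ix i x1 - b, ix i x1) : Pt) ∈
      sN (q.al U K) o K (cx K x) (2 ^ i * a) i := by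
    by_contra h
    exact hne (hoff h)
  rw [mem_sN] at hm
  obtain ⟨m1, _, m3⟩ := hm
  have e : o - 2 - ix i x1 - b - a = o - 2 - a - ix i x1 - b := by ring
  rw [e]
  obtain ⟨c, hc⟩ : ∃ c, c = o - 2 - a - ix i x1 - b := ⟨_, rfl⟩
  rw [← hc] at m1 m3 ⊢
  have m2 : c ∈ iv (K - i) (ix K x.2.1) := (PL.H990.mem_cbs.1 m1).2.1
  have hix : ix i (2 ^ i * c) = c := H769.ix_two_pow_mul i c
  have hix1 : ix i (2 ^ i * ix i x1) = ix i x1 := H769.ix_two_pow_mul i _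
  have hs : ¬ sst q.Lm U.1 K i x1 (2 ^ i * c) := by
    intro h
    apply m3
    left
    exact (H769.sst_congr hix1.symm rfl).1 h
  have h2 : 2 ^ i * c ∈ iv K (ix K x.2.1) := by
    rw [mem_iv] at m2 ⊢
    rw [← m2, ← hix, ix_ix, hix, Nat.add_sub_cancel' hiK]
  have h3 := H516.ar_fib hF (h := lam1 q s r / 2) (by linarith) hiK h1 h2 hs
  rw [hix] at h3
  exact h3

/-! ### The number -/

/-- the half difference of the slot at the cell `m`, one `x1` -/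
def Dx (l : ℝ) (u : ℤ → ℤ → ι → ℝ) (o : ℤ) (sg : ℤ → ℕ → ℤ → ℤ → ℝ) (K : ℕ) (h x0 : ℤ) (k : ℕ)
    (x1 m : ℤ) : Matrix ι ι ℝ :=
  Rs (MT l (KT l u x1)) o x1 (sg x1) K h (k - 1) x0 (2 * m) -
    Rs (MT l (KT l u x1)) o x1 (sg x1) K h k x0 m

theorem DR_Dx {o : ℤ} {l : ℝ} {R : Slt ι} {sg : ℤ → ℕ → ℤ → ℤ → ℝ}
    (hR : ∀ x0 j z x1, R x0 j z x1 = H841.Rm (MT l (KT l u x1)) o x1 (sg x1) K j x0 z)
    (sh : Pt) (x0 : ℤ) (k : ℕ) (y n : ℤ) :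
    DR R sh x0 (k + 1) y n = Dx l u o sg K sh.2.2 x0 (k + 1) (y + sh.1) n := by
  rw [DR_eq, RgS_Rs hR, RgS_Rs hR]
  rfl

/-- **One `x1`.** -/
theorem ev_x1 (hF : FibU q K x s r U u) {l : ℝ} (hl : 0 < l) (hl1 : 0 ≤ lam1 q s r)
    (hL : 1 ≤ q.Lm) {n : ℕ} {F3 : ℕ → Pt → ℝ} {Q3 : ℕ → Pt → Prop}
    (hB : BSl n q.e q.cP F3 Q3) (he : 0 ≤ q.e) (hKn : K ≤ n) {o : ℤ} (ho : o = 1 ∨ o = -1)
    {sg : ℤ → ℕ → ℤ → ℤ → ℝ} (hs1 : ∀ x1 k a b, |sg x1 k a b| ≤ 1)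
    (hoff : ∀ x1 k a b, ((b, o - 2 - a - ix k x1 - b, ix k x1) : Pt) ∉
      sN (q.al U K) o K (cx K x) (2 ^ k * a) k → sg x1 k a b = 0)
    (t h : ℤ) (Ms : ℕ → Finset ℤ) {x1 : ℤ} (h1 : x1 ∈ iv K (ix K x.1)) :
    ∑ x0 ∈ iv K t, ∑ k ∈ Icc 1 K, ∑ x2 ∈ iv K (ix K x.2.1),
      ∑ m ∈ (Ms k).filter (fun m => Tie k 12 (o - 2) x0 x1 x2 (m + ix k h)),
        kF q.Lm U.1 K F3 (k - 1) (x0, x1, x2) ^ 2 * nsq (Dx l u o sg K h x0 k x1 m *ᵥ u x1 x2) ≤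
      120000000 * 37 ^ 4 * (1 + Real.log (1 + 2 * lam1 q s r / l)) *
        (q.e * 4 ^ K * (GT u x1 K (ix K x.2.1)).trace) := by
  have h2 := H796.var_real (u := u x1) (o := o) (x1 := x1) (s := sg x1) (S := ix K x.2.1)
    (tr_T hl K u x1) (h := lam1 q s r / 2) (by linarith)
    (by have := H516.root_fib hF hL h1; linarith)
    (fun k p => by
      have e : GT u x1 k p = ((2 : ℝ) ^ k)⁻¹ • ∑ x2 ∈ iv k p, vecMulVec (u x1 x2) (u x1 x2) := rfl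
      rw [e, sub_self]
      exact PosSemidef.zero)
    (fun i _ hi2 a b hab => sgn_alive hF h1 hi2 (hoff x1 i a b) hab) (hs1 x1) ho t h 12 Ms he
    (W := Wt q U K F3 (ix K x.2.1) x1) (fun k x0 x2 => Wt_nonneg q U K F3 _ x1 k x0 x2)
    (fun k hk i x2 => Wt_lines hB he hKn hk i x2)
    (fun k hk x0 x2 hne => Wt_alive hF hk h1 hne)
  have e1 : 4 * (lam1 q s r / 2) / l = 2 * lam1 q s r / l := by ring
  rw [e1] at h2
  have e2 : (2 * ((12 : ℕ) : ℝ) + 13) ^ 4 = 37 ^ 4 := by norm_num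
  rw [e2] at h2
  refine le_trans (le_of_eq ?_) h2
  refine sum_congr rfl fun x0 _ => sum_congr rfl fun k _ => sum_congr rfl fun x2 hx2 =>
    sum_congr rfl fun m _ => ?_
  unfold Wt Dx
  rw [if_pos hx2]

/-- **The energy of the drifts on the partner**, class data, every slot, every grid. -/
theorem ev_fd {n : ℕ} {ez P : ℝ} {F1 F2 F3 : ℕ → Pt → ℝ} {g : ℤ → ℤ → ℝ} {v : ℤ → ℤ → ι → ℝ}
    {A : FamA} {b C : FamV ι} {Q1 Q2 Q3 : ℕ → Pt → Prop} {v' : ℤ → ℤ → ι → ℝ}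
    (h : FDs q n ez F1 F2 F3 K x s r U g u v A b C Q1 Q2 Q3 v') (hF : FibU q K x s r U u)
    (hC : Cls K x s r P U g u v) (ht : 0 < q.t) (ht1 : q.t ≤ 1) (hd : 0 ≤ q.d) (hs : 0 < s)
    (hr : 1 ≤ r) (he0 : 0 ≤ q.e0) (he : 0 ≤ q.e) (hKn : K ≤ n) {o : ℤ} (ho : o = 1 ∨ o = -1)
    {R : Slt ι} {κ E : ℝ} (hS : SlotN (q.al U K) o K (cx K x) (q.lam s r) u R κ E) (t : ℤ)
    (sh : Pt) {j : ℤ} (hj : j ∈ Icc (0 : ℤ) 2) (S Y : ℤ) :
    ∑ x0 ∈ iv K t, ZV 0 K Y S (fun k => ix k (ys (-x0) sh) - j) (DR R sh x0)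
      (MSb K (cx K x) b sh x0) ≤
    120000000 * 37 ^ 4 * q.e * (3 + 10 * Real.log (r / q.t)) * (s * 8 ^ K) := by
  have hss : 0 < √s := Real.sqrt_pos.2 hs
  have hr0 : 0 < r := by linarith
  have hl : 0 < q.lam s r := by
    unfold H401.Num.lam
    positivity
  have hl1 : 0 ≤ lam1 q s r := by
    unfold H677.Sk.lam1
    positivity
  have hL : 1 ≤ q.Lm := H401.Num.Lm_ge ht ht1 hd
  obtain ⟨sg, hs1, hoff, hR⟩ := hS.sgn
  rw [mem_Icc] at hj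
  -- one `x0`, one time
  have key : ∀ x0 ∈ iv K t, ∀ k ∈ range K,
      ∑ y1 ∈ iv K S, ∑ y2 ∈ iv K Y,
        ∑ i, ((DR R sh x0 (k + 1) y1 (ix (k + 1) (ys (-x0) sh) - j - ix (k + 1) y1 -
          ix (k + 1) y2))ᵀ *ᵥ fun i => MSb K (cx K x) b sh x0 k y1 y2 (Sum.inr i)) i ^ 2 ≤
      ∑ x1 ∈ iv K (ix K x.1), ∑ x2 ∈ iv K (ix K x.2.1),
        ∑ m ∈ (Mz K o t (ix K x.1) (ix K x.2.1) sh.2.2 (k + 1)).filter (fun m =>
          Tie (k + 1) 12 (o - 2) x0 x1 x2 (m + ix (k + 1) sh.2.2)),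
          kF q.Lm U.1 K F3 k (x0, x1, x2) ^ 2 *
            nsq (Dx (q.lam s r) u o sg K sh.2.2 x0 (k + 1) x1 m *ᵥ u x1 x2) := by
    intro x0 hx0 k hk
    have hk' : k < K := mem_range.1 hk
    have h1 := H771.pts_le (K := K) (k := k) hk' (o := o) (x0 := x0) (t := t)
      (M1 := ix K x.1) (M2 := ix K x.2.1) (s1 := sh.1) (s2 := sh.2.1) (s3 := sh.2.2) (j := j) ho
      hj hx0 S Y (D := fun x1 m => Dx (q.lam s r) u o sg K sh.2.2 x0 (k + 1) x1 m)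
      (b := b x0 k) (B := mb q U K u F3 x0 k)
      (fun x1 p w => h.rowb k hk'.le k (Or.inl rfl) x0 x1 p w)
    refine le_trans (le_of_eq ?_) (h1.trans (le_of_eq ?_))
    · refine sum_congr rfl fun y1 _ => sum_congr rfl fun y2 _ => ?_
      rw [DR_symm (fun x0 z x1 => hS.symm x0 0 (Nat.zero_le K) z x1), DR_Dx hR,
        ← H841.nsq_eq]
      have e1 : (fun i => MSb K (cx K x) b sh x0 k y1 y2 (Sum.inr i)) =
          shB K (cx K x) sh (b x0) k y1 y2 := rfl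
      rw [e1]
      unfold H747.shB H747.sft
      by_cases hc : ix K (y1 + sh.1) = ix K x.1 ∧ ix K (y2 + sh.2.1) = ix K x.2.1
      · have hc' : y1 + sh.1 ∈ iv K (ix K x.1) ∧ y2 + sh.2.1 ∈ iv K (ix K x.2.1) :=
          ⟨mem_iv.2 hc.1, mem_iv.2 hc.2⟩
        rw [if_pos hc']
        have hc2 : ix K (y1 + sh.1) = (cx K x).1 ∧ ix K (y2 + sh.2.1) = (cx K x).2.1 := hc
        rw [if_pos hc2]
        rfl
      · have hc' : ¬ (y1 + sh.1 ∈ iv K (ix K x.1) ∧ y2 + sh.2.1 ∈ iv K (ix K x.2.1)) :=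
          fun hh => hc ⟨mem_iv.1 hh.1, mem_iv.1 hh.2⟩
        rw [if_neg hc']
        have hc2 : ¬ (ix K (y1 + sh.1) = (cx K x).1 ∧ ix K (y2 + sh.2.1) = (cx K x).2.1) := hc
        rw [if_neg hc2, mulVec_zero, H841.nsq_eq]
        simp
    · refine sum_congr rfl fun x1 _ => sum_congr rfl fun x2 _ => sum_congr rfl fun m _ => ?_
      unfold H401.mb H677.fb
      rw [mulVec_smul]
      unfold H43.nsq
      rw [smul_dotProduct, dotProduct_smul, smul_eq_mul, smul_eq_mul]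
      ring
  -- all `x0` and times
  have h1 : ∑ x0 ∈ iv K t, ZV 0 K Y S (fun k => ix k (ys (-x0) sh) - j) (DR R sh x0)
      (MSb K (cx K x) b sh x0) ≤
      ∑ x1 ∈ iv K (ix K x.1), ∑ x0 ∈ iv K t, ∑ k ∈ Icc 1 K, ∑ x2 ∈ iv K (ix K x.2.1),
        ∑ m ∈ (Mz K o t (ix K x.1) (ix K x.2.1) sh.2.2 k).filter (fun m =>
          Tie k 12 (o - 2) x0 x1 x2 (m + ix k sh.2.2)),
          kF q.Lm U.1 K F3 (k - 1) (x0, x1, x2) ^ 2 *
            nsq (Dx (q.lam s r) u o sg K sh.2.2 x0 k x1 m *ᵥ u x1 x2) := by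
    rw [sum_comm (s := iv K (ix K x.1))]
    refine sum_le_sum fun x0 hx0 => ?_
    have e2 : ∀ f : ℕ → ℝ, ∑ k ∈ Icc 1 K, f k = ∑ k ∈ range K, f (k + 1) := by
      intro f
      rw [range_eq_Ico, sum_Ico_add' f 0 K 1]
      rfl
    simp only [e2]
    rw [sum_comm (s := iv K (ix K x.1))]
    unfold H585.PairRX.ZV
    rw [← range_eq_Ico]
    exact sum_le_sum fun k hk => key x0 hx0 k hk
  refine h1.trans ?_
  refine (sum_le_sum fun x1 hx1 => ev_x1 hF hl hl1 hL h.B3 he hKn ho hs1 hoff t sh.2.2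
    (Mz K o t (ix K x.1) (ix K x.2.1) sh.2.2) hx1).trans ?_
  have hm := H58.mass_u hC
  change ∑ x' ∈ iv K (ix K x.1), ∑ y ∈ iv K (ix K x.2.1), u x' y ⬝ᵥ u x' y ≤ s * 4 ^ K at hm
  have hLg := H451.BM.log_ratio ht ht1 hs hr he0
  have hL0 : 0 ≤ 1 + Real.log (1 + 2 * lam1 q s r / q.lam s r) := by
    have : 0 ≤ Real.log (1 + 2 * lam1 q s r / q.lam s r) := Real.log_nonneg (by
      have : 0 ≤ 2 * lam1 q s r / q.lam s r := by positivity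
      linarith)
    linarith
  have e3 : ∑ x1 ∈ iv K (ix K x.1), 120000000 * 37 ^ 4 *
        (1 + Real.log (1 + 2 * lam1 q s r / q.lam s r)) *
        (q.e * 4 ^ K * (GT u x1 K (ix K x.2.1)).trace) =
      120000000 * 37 ^ 4 * (q.e * 2 ^ K) * ((1 + Real.log (1 + 2 * lam1 q s r / q.lam s r)) *
        ∑ x' ∈ iv K (ix K x.1), ∑ y ∈ iv K (ix K x.2.1), u x' y ⬝ᵥ u x' y) := by
    rw [mul_sum, mul_sum]
    refine sum_congr rfl fun x1 _ => ?_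
    rw [GT_trace]
    have e4 : (4 : ℝ) ^ K = 2 ^ K * 2 ^ K := by rw [← mul_pow]; norm_num
    have e5 : (2 : ℝ) ^ K ≠ 0 := by positivity
    rw [e4]
    field_simp
  rw [e3]
  have h8 : (8 : ℝ) ^ K = 2 ^ K * 4 ^ K := by rw [← mul_pow]; norm_num
  calc _ ≤ 120000000 * 37 ^ 4 * (q.e * 2 ^ K) *
        ((3 + 10 * Real.log (r / q.t)) * (s * 4 ^ K)) := by
        refine mul_le_mul_of_nonneg_left ?_ (by positivity)
        exact mul_le_mul hLg hm (sum_nonneg fun a _ => sum_nonneg fun b _ => H483.dot_nonneg _)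
          (hL0.trans hLg)
    _ = _ := by rw [h8]; ring

end

end Vale.Agent.P141.H780.Ev
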