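import Vale.Agent.P141.H331.SkelTZ
import Vale.Agent.P141.H576.GapN
import Vale.Agent.P141.H576.StatZ

/-!
# P141, line (A): the field `ZGap` of the definite cut families

`gap_mon` : the number of `H576.GapFam.w` in one monomial; `mkT_ZGap : H331.MkT H331.ZGap`.
-/

namespace Vale.Agent.P141.H780

open Finset Matrix Vale.Agent.P075 Vale.Agent.P141.PL Vale.Agent.P141.PL.H588
open Vale.Agent.P141.PL.H804 Vale.Agent.P141.H958
open Vale.Agent.P141.PL.H315 (Tri)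
open Vale.Agent.P141.H677 (KT GT rt sN cP cP_pl cP_ix sN_sub)
open Vale.Agent.P141.H401 (Num cA cb mC)
open Vale.Agent.P141.H331 (ZGap MkT lsz)

noncomputable section

open scoped Classical

/-- **The number of the gap.** -/
theorem gap_mon {e0 c d CA CB t s r cQ : ℝ} (he0 : 0 < e0) (hc0 : 0 ≤ c) (hc : c ≤ e0 / 100)
    (hd0 : 0 < d) (hd : d ≤ e0 / 100) (hCA : 0 < CA) (hCB : 0 < CB) (ht : 0 < t) (ht1 : t ≤ 1)
    (hs : 0 < s) (hr : 1 ≤ r) (hcQ : 0 ≤ cQ) (K : ℕ) :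
    √(t ^ (2 - e0) * √s * r ^ e0) * (146 * √(CA * (t ^ (2 - 2 * c - 2 * d) * s ^ (3 / 2 : ℝ)) *
      ((t ^ (2 - e0) * √s * r ^ e0)⁻¹ *
        (CB * (t ^ (2 + e0 / 4) * s ^ (3 / 2 : ℝ) * r ^ (-(e0 / 4)))))) * (cQ * 8 ^ K)) ≤
      146 * √(CA * CB) * cQ * (t ^ (-(8 * (c + d))) * (t ^ (2 : ℝ) * (t / r) ^ (e0 / 10) *
        s ^ (3 / 2 : ℝ)) * 8 ^ K) := by
  refine (H576.gapN_num he0 hc hd hCA hCB ht ht1 hs hr hcQ K).trans ?_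
  have hr0 : 0 < r := by linarith
  have h1 : t ^ (2 + e0 / 10) = t ^ (2 : ℝ) * t ^ (e0 / 10) := Real.rpow_add ht _ _
  have h2 : (t / r) ^ (e0 / 10) = t ^ (e0 / 10) * r ^ (-(e0 / 10)) := by
    rw [Real.div_rpow ht.le hr0.le, Real.rpow_neg hr0.le, div_eq_mul_inv]
  have h3 : r ^ (-(e0 / 8)) ≤ r ^ (-(e0 / 10)) :=
    Real.rpow_le_rpow_of_exponent_le hr (by linarith)
  have h4 : 1 ≤ t ^ (-(8 * (c + d))) :=
    Real.one_le_rpow_of_pos_of_le_one_of_nonpos ht ht1 (by linarith)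
  have ht2 : 0 < t ^ (2 : ℝ) := Real.rpow_pos_of_pos ht _
  have ht3 : 0 < t ^ (e0 / 10) := Real.rpow_pos_of_pos ht _
  have hs3 : 0 < s ^ (3 / 2 : ℝ) := Real.rpow_pos_of_pos hs _
  have hr3 : 0 < r ^ (-(e0 / 10)) := Real.rpow_pos_of_pos hr0 _
  have h5 : t ^ (2 + e0 / 10) * s ^ (3 / 2 : ℝ) * r ^ (-(e0 / 8)) * 8 ^ K ≤
      t ^ (-(8 * (c + d))) * (t ^ (2 : ℝ) * (t / r) ^ (e0 / 10) * s ^ (3 / 2 : ℝ)) * 8 ^ K := by
    refine mul_le_mul_of_nonneg_right ?_ (by positivity)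
    rw [h1, h2]
    calc t ^ (2 : ℝ) * t ^ (e0 / 10) * s ^ (3 / 2 : ℝ) * r ^ (-(e0 / 8))
        ≤ t ^ (2 : ℝ) * t ^ (e0 / 10) * s ^ (3 / 2 : ℝ) * r ^ (-(e0 / 10)) :=
          mul_le_mul_of_nonneg_left h3 (by positivity)
      _ = 1 * (t ^ (2 : ℝ) * (t ^ (e0 / 10) * r ^ (-(e0 / 10))) * s ^ (3 / 2 : ℝ)) := by ring
      _ ≤ _ := mul_le_mul_of_nonneg_right h4 (by positivity)
  exact mul_le_mul_of_nonneg_left h5 (by positivity)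

/-- **The field `ZGap`.** -/
theorem mkT_ZGap : MkT ZGap := by
  intro a ha ha1
  refine ⟨a / 10, by positivity, fun e0 he0 he0' => ⟨1, one_pos, fun k8 _ _ => ⟨1, one_pos,
    fun k3 _ _ => ⟨1, e0 / 100, e0 / 100, 1, one_pos, by positivity, by positivity, one_pos,
    fun c hc hcc d hd hdd Kt e cQ L hK he hcQ hL => ?_⟩⟩⟩⟩
  obtain ⟨CA, CB, hCA, hCB, H⟩ := H576.gapN ha1 he0 he0' hcc hd hdd hK he hcQ hL
  refine ⟨max 1 (146 * √(CA * CB) * (cQ + 2)), le_max_left _ _, 0, le_rfl, ?_⟩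
  intro t ht ht1 n ez F1 F2 F3 h1 h3 h2 o ho K hKn x ι _ _ s r U g u v hs hr hcls Q1 Q2 Q3 q1 q2
    q3 hez L' e' inj hm t0 ht0
  have f := H t ht ht1 n F1 F3 Q1 Q3 h1 q1 h3 q3 K hKn x ι s r _ U g u v hs hr hcls t0
  have f2 := f.cuts (fun i n m => H576.QD_zero _ _ _ _ _) (fun i n m => H576.QD_zero _ _ _ _ _)
    ((Num.th ⟨a, e0, k8, k3, c, d, Kt, e, cQ, L, max 1 (146 * √(CA * CB) * (cQ + 2)), t⟩ s r) ^ 2)
    ((Num.th ⟨a, e0, k8, k3, c, d, Kt, e, cQ, L, max 1 (146 * √(CA * CB) * (cQ + 2)), t⟩ s r) ^ 2)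
    ((Num.be ⟨a, e0, k8, k3, c, d, Kt, e, cQ, L, max 1 (146 * √(CA * CB) * (cQ + 2)), t⟩ s r) ^ 2
      / √(t ^ (2 - e0) * √s * r ^ e0)) (KT (t ^ (2 - e0) * √s * r ^ e0) u)
  have f3 := f2.w (R := ((cx K x).2.2, (cx K x).2.1, (cx K x).1)) inj hm
    (c := fun i => cP o i) (fun i => cP_pl ho i) (fun k i j h => cP_ix o h)
    (s := fun i k => sN (Num.al ⟨a, e0, k8, k3, c, d, Kt, e, cQ, L,
      max 1 (146 * √(CA * CB) * (cQ + 2)), t⟩ U K) o K (cx K x) i k)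
    (fun i _ k _ => sN_sub _ o K (cx K x) i k)
  refine le_trans f3 ?_
  refine mul_le_mul_of_nonneg_left ?_ (by positivity)
  refine (gap_mon he0 hc hcc hd hdd hCA hCB ht ht1 hs hr (by linarith) K).trans ?_
  show 146 * √(CA * CB) * (cQ + 2) * (t ^ (-(8 * (c + d))) * (t ^ (2 : ℝ) * (t / r) ^ (e0 / 10) *
        s ^ (3 / 2 : ℝ)) * 8 ^ K) ≤ max 1 (146 * √(CA * CB) * (cQ + 2)) *
        (t ^ (-(8 * (c + d))) * (t ^ (2 : ℝ) * (t / r) ^ (e0 / 10) * s ^ (3 / 2 : ℝ)) * 8 ^ K)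
  refine mul_le_mul_of_nonneg_right (le_max_right _ _) ?_
  have hr0 : 0 < r := by linarith
  have : 0 < t / r := div_pos ht hr0
  have h5 : 0 < (t / r) ^ (e0 / 10) := Real.rpow_pos_of_pos this _
  have h6 : 0 < t ^ (-(8 * (c + d))) := Real.rpow_pos_of_pos ht _
  have h7 : 0 < t ^ (2 : ℝ) := Real.rpow_pos_of_pos ht _
  have h8 : 0 < s ^ (3 / 2 : ℝ) := Real.rpow_pos_of_pos hs _
  positivity

end

end Vale.Agent.P141.H780
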